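import Vale.Agent.P232.NearDiag3

/-!
# P232U, module K1

`near_diag_s` (first proved here by helper83) is now in `Vale.Agent.P232.NearDiag3`.
-/
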